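import Mathlib

/-! # P014Y, block Pk: two Lagrangians in a finite symmetric space -/

set_option autoImplicit false
set_option linter.all false

noncomputable section

namespace Vale.Agent.P014Y.Pk

/-- the values of characters -/
abbrev DD : Type := Additive ℂˣ

theorem card_hom (T : Type) [AddCommGroup T] [Finite T] : Nat.card (T →+ DD) = Nat.card T := by
  have : NeZero ((Monoid.exponent (Multiplicative T) : ℕ) : ℂ) :=
    ⟨Nat.cast_ne_zero.2 Monoid.exponent_ne_zero_of_finite⟩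
  exact (Nat.card_congr AddMonoidHom.toMultiplicativeLeft).trans
    (CommGroup.card_monoidHom_of_hasEnoughRootsOfUnity (Multiplicative T) ℂ)

variable {T A : Type} [AddCommGroup T] [AddCommGroup A]

/-- the annihilator -/
def perp (β : T →+ T →+ A) (C : AddSubgroup T) : AddSubgroup T where
  carrier := {y | ∀ x ∈ C, β y x = 0}
  zero_mem' := fun x _ => by simp
  add_mem' := fun a b x h => by simp [a x h, b x h]
  neg_mem' := fun a x h => by simp [a x h]

theorem mem_perp {β : T →+ T →+ A} {C : AddSubgroup T} {y : T} :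
    y ∈ perp β C ↔ ∀ x ∈ C, β y x = 0 := Iff.rfl

theorem card_split {T' : Type} [AddCommGroup T'] (S : AddSubgroup T) (f : T →+ T') :
    Nat.card S = Nat.card (S.map f) * Nat.card (S ⊓ f.ker :) := by
  rw [AddSubgroup.card_eq_card_quotient_mul_card_addSubgroup (f.comp S.subtype).ker,
    Nat.card_congr (QuotientAddGroup.quotientKerEquivRange (f.comp S.subtype)).toEquiv,
    AddMonoidHom.range_comp, AddSubgroup.range_subtype,
    ← AddSubgroup.card_map_of_injective (K := (f.comp S.subtype).ker) S.subtype_injective,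
    ← AddMonoidHom.comap_ker, AddSubgroup.map_comap_eq, AddSubgroup.range_subtype]

variable [Finite T] {e : A →+ DD} (he : Function.Injective e)
include he

section

variable {β : T →+ T →+ A} (nd : ∀ x, β x = 0 → x = 0)
include nd

theorem ex_rep (φ : T →+ DD) : ∃ y, e.comp (β y) = φ := by
  have : Finite (T →+ DD) := Nat.finite_of_card_ne_zero (card_hom T ▸ Nat.card_pos.ne')
  refine ((Nat.bijective_iff_injective_and_card fun y => e.comp (β y)).2
    ⟨fun y z h => sub_eq_zero.1 (nd _ (AddMonoidHom.ext fun x => he ?_)), (card_hom T).symm⟩).2 φ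
  have := DFunLike.congr_fun h x
  simp only [AddMonoidHom.comp_apply] at this
  simp [this]

/-- the order of the annihilator -/
theorem card_perp (C : AddSubgroup T) : Nat.card (perp β C) * Nat.card C = Nat.card T := by
  rw [AddSubgroup.card_eq_card_quotient_mul_card_addSubgroup C, ← card_hom (T ⧸ C)]
  congr 1
  refine Nat.card_eq_of_bijective (fun y => QuotientAddGroup.lift C (e.comp (β y.1))
    fun x h => by simp [y.2 x h]) ⟨fun y z h => Subtype.ext (sub_eq_zero.1 (nd _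
      (AddMonoidHom.ext fun x => he ?_))), fun φ => ?_⟩
  · have := DFunLike.congr_fun h (x : T ⧸ C)
    simp only [QuotientAddGroup.lift_mk, AddMonoidHom.comp_apply] at this
    simp [this]
  · obtain ⟨y, h⟩ := ex_rep he nd (φ.comp (QuotientAddGroup.mk' C))
    have k : ∀ x, e (β y x) = φ x := fun x => DFunLike.congr_fun h x
    refine ⟨⟨y, fun x m => he ?_⟩, AddMonoidHom.ext fun q => ?_⟩
    · rw [k, (QuotientAddGroup.eq_zero_iff x).2 m, map_zero, map_zero]
    · obtain ⟨x, rfl⟩ := QuotientAddGroup.mk_surjective q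
      exact k x

theorem perp_perp (rf : ∀ x y, β x y = 0 → β y x = 0) (C : AddSubgroup T) :
    perp β (perp β C) = C := by
  refine (AddSubgroup.eq_of_le_of_card_ge (show C ≤ perp β (perp β C) from
    fun x h y k => rf _ _ (k x h)) (le_of_eq ?_)).symm
  refine mul_right_cancel₀ (Nat.card_pos (α := perp β C)).ne' ?_
  rw [card_perp he nd, mul_comm, card_perp he nd]

theorem perp_inf (rf : ∀ x y, β x y = 0 → β y x = 0) (C C' : AddSubgroup T) :
    perp β (C ⊓ C') = perp β C ⊔ perp β C' := by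
  rw [← perp_perp he nd rf (perp β C ⊔ perp β C')]
  congr 1
  refine le_antisymm (fun x h y k => ?_) fun x h => ⟨?_, ?_⟩
  · obtain ⟨a, ha, b, hb, rfl⟩ := AddSubgroup.mem_sup.1 k
    rw [map_add, rf _ _ (ha x h.1), rf _ _ (hb x h.2), add_zero]
  · rw [← perp_perp he nd rf C]
    exact fun y k => h y (AddSubgroup.mem_sup_left k)
  · rw [← perp_perp he nd rf C']
    exact fun y k => h y (AddSubgroup.mem_sup_right k)

theorem perp_self {X : AddSubgroup T} (iso : ∀ x ∈ X, ∀ y ∈ X, β x y = 0)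
    (c : Nat.card T ≤ Nat.card X * Nat.card X) : perp β X = X := by
  refine (AddSubgroup.eq_of_le_of_card_ge (show X ≤ perp β X from fun x h => iso x h) ?_).symm
  rw [← card_perp he nd X] at c
  exact Nat.le_of_mul_le_mul_right c Nat.card_pos

/-- a perfect alternating pairing makes the order a square -/
theorem sq0 (alt : ∀ x, β x x = 0) : ∃ s, Nat.card T = s ^ 2 := by
  have sk : ∀ x y, β x y = 0 → β y x = 0 := fun x y h => by
    have := alt (x + y)
    simpa [alt, h] using this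
  have : Finite (AddSubgroup T) := Finite.of_injective _ SetLike.coe_injective
  obtain ⟨M, hM, mx⟩ := (Set.toFinite {M : AddSubgroup T | M ≤ perp β M}).exists_maximal
    ⟨⊥, show ⊥ ≤ perp β ⊥ from bot_le⟩
  refine ⟨Nat.card M, ?_⟩
  rw [← card_perp he nd M, sq]
  congr 2
  refine congrArg _ (le_antisymm (fun x h => ?_) hM)
  refine mx (y := M ⊔ AddSubgroup.zmultiples x) (fun y k z j => ?_) le_sup_left
    (AddSubgroup.mem_sup_right (AddSubgroup.mem_zmultiples x))
  obtain ⟨a, ha, _, ⟨m, rfl⟩, rfl⟩ := AddSubgroup.mem_sup.1 k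
  obtain ⟨b, hb, _, ⟨n, rfl⟩, rfl⟩ := AddSubgroup.mem_sup.1 j
  simp [hM ha b hb, h b hb, sk _ _ (h a ha), alt]

end

/-- the same up to the radical -/
theorem sq1 {β : T →+ T →+ A} (alt : ∀ x, β x x = 0) :
    ∃ s, Nat.card T = s ^ 2 * Nat.card β.ker := by
  have sk : ∀ x y, β x y = 0 → β y x = 0 := fun x y h => by
    have := alt (x + y)
    simpa [alt, h] using this
  let γ : T ⧸ β.ker →+ T ⧸ β.ker →+ A := (QuotientAddGroup.lift β.ker
    (QuotientAddGroup.kerLift β).flip fun r h => AddMonoidHom.ext fun q => by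
      obtain ⟨x, rfl⟩ := QuotientAddGroup.mk_surjective q
      exact sk _ _ (DFunLike.congr_fun h x)).flip
  have k : ∀ x y : T, γ x y = β x y := fun _ _ => rfl
  obtain ⟨s, h⟩ := sq0 he (β := γ) (fun q h => by
    obtain ⟨x, rfl⟩ := QuotientAddGroup.mk_surjective q
    exact (QuotientAddGroup.eq_zero_iff x).2
      (AddMonoidHom.ext fun y => DFunLike.congr_fun h (y : T ⧸ β.ker))) fun q => by
    obtain ⟨x, rfl⟩ := QuotientAddGroup.mk_surjective q
    exact alt x
  exact ⟨s, by rw [AddSubgroup.card_eq_card_quotient_mul_card_addSubgroup β.ker, h]⟩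

/-- multiplication by a number -/
abbrev mu (T : Type) [AddCommGroup T] (n : ℕ) : T →+ T := nsmulAddMonoidHom n

/-- two Lagrangians `X`, `L` in a space which is free over `ℤ / q ^ 2` -/
structure Lg (B : T →+ T →+ A) (q : ℕ) (X L : AddSubgroup T) : Prop where
  sy : ∀ x y, B x y = B y x
  nd : ∀ x, B x = 0 → x = 0
  kl : ∀ w : T, q • q • w = 0
  fr : ∀ w : T, q • w = 0 → ∃ v, q • v = w
  iX : ∀ x ∈ X, ∀ y ∈ X, B x y = 0
  iL : ∀ x ∈ L, ∀ y ∈ L, B x y = 0
  cX : Nat.card T ≤ Nat.card X * Nat.card X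
  cL : Nat.card T ≤ Nat.card L * Nat.card L
  sX : ∀ x ∈ X, q • x = 0 → ∃ a ∈ X, q • a = x
  sL : ∀ x ∈ L, q • x = 0 → ∃ a ∈ L, q • a = x

variable {B : T →+ T →+ A} {q : ℕ} {X L : AddSubgroup T}

omit he in
theorem Lg.mv (x y : T) (n : ℕ) : B (n • x) y = B x (n • y) := by simp

/-- **the pairing on the intersection** -/
theorem Lg.pair (h : Lg B q X L) (od : Odd q) :
    ∃ β : (X ⊓ L ⊓ (mu T q).ker :) →+ (X ⊓ L ⊓ (mu T q).ker :) →+ A, (∀ x, β x x = 0) ∧
      ∀ x, β x = 0 ↔ x.1 ∈ (X ⊓ L).map (mu T q) := by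
  choose a a1 a2 using fun x : (X ⊓ L ⊓ (mu T q).ker :) => h.sX x.1 x.2.1.1 x.2.2
  choose b b1 b2 using fun x : (X ⊓ L ⊓ (mu T q).ker :) => h.sL x.1 x.2.1.2 x.2.2
  have wd : ∀ x y a' b', a' ∈ X → q • a' = x.1 → b' ∈ L → q • b' = y.1 →
      B (a x) (b y) = B a' b' := fun x y a' b' m1 e1 m2 e2 => by
    obtain ⟨u, u1, u2⟩ := h.sX _ (X.sub_mem (a1 x) m1) (by rw [nsmul_sub, a2, e1, sub_self])
    obtain ⟨v, v1, v2⟩ := h.sL _ (L.sub_mem (b1 y) m2) (by rw [nsmul_sub, b2, e2, sub_self])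
    have k1 : B (a x - a') (b y) = 0 := by rw [← u2, Lg.mv, b2, h.iX _ u1 _ y.2.1.1]
    have k2 : B a' (b y - b') = 0 := by rw [← v2, ← Lg.mv, e1, h.iL _ x.2.1.2 _ v1]
    rw [map_sub, AddMonoidHom.sub_apply, sub_eq_zero] at k1
    rw [k1, ← sub_eq_zero, ← map_sub, k2]
  have rf : ∀ x y, B x y = 0 → B y x = 0 := fun x y k => h.sy x y ▸ k
  refine ⟨AddMonoidHom.mk' (fun x => AddMonoidHom.mk' (fun y => B (a x) (b y)) fun y z => ?_)
    fun x z => AddMonoidHom.ext fun y => ?_, fun x => ?_, fun x => ⟨fun k => ?_, ?_⟩⟩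
  · rw [wd x (y + z) _ _ (a1 x) (a2 x) (L.add_mem (b1 y) (b1 z)) (by rw [nsmul_add, b2, b2]; rfl),
      map_add]
  · change B _ _ = B _ _ + B _ _
    rw [wd (x + z) y _ _ (X.add_mem (a1 x) (a1 z)) (by rw [nsmul_add, a2, a2]; rfl) (b1 y) (b2 y),
      map_add, AddMonoidHom.add_apply]
  · change B (a x) (b x) = 0
    have z : q • (a x - b x) = 0 := by rw [nsmul_sub, a2, b2, sub_self]
    obtain ⟨v, e1⟩ := h.fr _ z
    have k : B (q • v) (a x - b x) = 0 := by rw [Lg.mv, z, map_zero]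
    rw [e1] at k
    simp only [map_sub, AddMonoidHom.sub_apply, h.iX _ (a1 x) _ (a1 x), h.iL _ (b1 x) _ (b1 x),
      h.sy (b x) (a x)] at k
    have k2 : 2 • B (a x) (b x) = 0 := by
      rw [two_nsmul, ← neg_eq_zero, ← k]
      abel
    have k3 : q • B (a x) (b x) = 0 := by rw [← map_nsmul, b2, h.iX _ (a1 x) _ x.2.1.1]
    obtain ⟨m, rfl⟩ := od
    rwa [add_nsmul, mul_nsmul, k2, nsmul_zero, zero_add, one_nsmul] at k3
  · have m : a x ∈ perp B (L ⊓ X.comap (mu T q)) := fun c j =>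
      (wd x ⟨q • c, ⟨j.2, L.nsmul_mem j.1 q⟩, h.kl c⟩ _ _ (a1 x) (a2 x) j.1 rfl).symm.trans
        (DFunLike.congr_fun k _)
    rw [perp_inf he h.nd rf, perp_self he h.nd h.iL h.cL] at m
    obtain ⟨c, c1, z, z1, e1⟩ := AddSubgroup.mem_sup.1 m
    have z2 : z ∈ X := perp_self he h.nd h.iX h.cX ▸ fun w j => z1 w (X.nsmul_mem j q)
    have z3 : q • z = 0 := h.nd _ (AddMonoidHom.ext fun w => by
      rw [Lg.mv]
      exact z1 _ (show q • q • w ∈ X from h.kl w ▸ X.zero_mem))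
    refine ⟨c, ⟨?_, c1⟩, ?_⟩
    · rw [eq_sub_of_add_eq e1]
      exact X.sub_mem (a1 x) z2
    · rw [eq_sub_of_add_eq e1, map_sub, ← a2 x]
      exact sub_eq_self.2 z3
  · rintro ⟨n, n1, n2⟩
    exact AddMonoidHom.ext fun y => (wd x y _ _ n1.1 n2 (b1 y) (b2 y)).trans
      (h.iL _ n1.2 _ (b1 y))

/-- **parity of the intersection**, `q = p r` -/
theorem Lg.par0 {p r : ℕ} (h : Lg B (p * r) X L) (od : Odd (p * r)) : ∃ s t : ℕ, s ≠ 0 ∧ t ≠ 0 ∧
    Nat.card (X ⊓ L ⊓ (mu T p).ker :) * s ^ 2 =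
      Nat.card ((X ⊓ L).map (mu T (p * r * r))) * t ^ 2 := by
  have P := h.pair he od
  generalize X ⊓ L = N at P ⊢
  set S := N ⊓ (mu T (p * r)).ker
  obtain ⟨β, alt, k⟩ := P
  obtain ⟨t, ht⟩ := sq1 he alt
  obtain ⟨s, hs⟩ := sq1 he (β := p • β) fun x => by simp [alt]
  have e0 : β.ker.map S.subtype = N.map (mu T (p * r)) := by
    ext w
    refine ⟨fun ⟨x, m, j⟩ => j ▸ (k x).1 m, fun m => ⟨⟨w, ?_⟩, (k _).2 m, rfl⟩⟩
    obtain ⟨n, n1, rfl⟩ := m
    exact ⟨N.nsmul_mem n1 _, h.kl n⟩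
  have m1 : ∀ x : S, x ∈ (p • β).ker ↔ p • x.1 ∈ N.map (mu T (p * r)) := fun x => by
    rw [AddMonoidHom.mem_ker, AddMonoidHom.nsmul_apply, ← map_nsmul, k]
    rfl
  have c1 := card_split ((p • β).ker.map S.subtype) (mu T p)
  have c0 := card_split (N.map (mu T (p * r))) (mu T r)
  have e1 : (p • β).ker.map S.subtype ⊓ (mu T p).ker = N ⊓ (mu T p).ker := by
    ext w
    refine ⟨fun ⟨⟨x, _, j⟩, m⟩ => ⟨j ▸ x.2.1, m⟩, fun ⟨n, m⟩ => ⟨⟨⟨w, n, ?_⟩, (m1 _).2 ?_, rfl⟩, m⟩⟩
    · change (p * r) • w = 0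
      rw [mul_nsmul, show p • w = 0 from m, nsmul_zero]
    · rw [show p • w = 0 from m]
      exact zero_mem _
  have e2 : ((p • β).ker.map S.subtype).map (mu T p) = N.map (mu T (p * r)) ⊓ (mu T r).ker := by
    ext w
    constructor
    · rintro ⟨_, ⟨x, m, rfl⟩, rfl⟩
      exact ⟨(m1 x).1 m, (mul_nsmul x.1 p r).symm.trans x.2.2⟩
    · rintro ⟨⟨n, n1, rfl⟩, m⟩
      have j : p • r • n = (p * r) • n := (mul_nsmul' n p r).symm
      refine ⟨r • n, ⟨⟨r • n, N.nsmul_mem n1 r, ?_⟩, (m1 _).2 ⟨n, n1, j.symm⟩, rfl⟩, j⟩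
      exact (smul_comm _ _ _).trans m
  have e3 : (N.map (mu T (p * r))).map (mu T r) = N.map (mu T (p * r * r)) := by
    rw [AddSubgroup.map_map]
    congr 1
    exact AddMonoidHom.ext fun w => (mul_nsmul w _ _).symm
  rw [e1, e2, AddSubgroup.card_map_of_injective S.subtype_injective] at c1
  rw [e3] at c0
  rw [← AddSubgroup.card_map_of_injective S.subtype_injective, e0, c0, hs, c1] at ht
  have p0 : Nat.card S ≠ 0 := Nat.card_pos.ne'
  refine ⟨s, t, fun z => p0 (by simp [hs, z]), fun z => p0 (by rw [hs, c1, ht]; simp [z]),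
    mul_right_cancel₀ (Nat.card_pos (α := (N.map (mu T (p * r)) ⊓ (mu T r).ker :))).ne' ?_⟩
  linear_combination ht

/-- **parity of the intersection** -/
theorem Lg.par {p i a b : ℕ} (hp : p.Prime) (p2 : p ≠ 2) (h : Lg B (p ^ (i + 1)) X L)
    (ha : Nat.card (X ⊓ L ⊓ (mu T p).ker :) = p ^ a)
    (hb : Nat.card ((X ⊓ L).map (mu T (p ^ (2 * i + 1)))) = p ^ b) : a % 2 = b % 2 := by
  rw [pow_succ'] at h
  obtain ⟨s, t, s0, t0, k⟩ := h.par0 he ((hp.odd_of_ne_two p2).mul (hp.odd_of_ne_two p2).pow)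
  rw [show p * p ^ i * p ^ i = p ^ (2 * i + 1) by ring, ha, hb] at k
  have := congrArg (fun n => n.factorization p) k
  simp only [Nat.factorization_mul (pow_ne_zero _ hp.ne_zero) (pow_ne_zero _ s0),
    Nat.factorization_mul (pow_ne_zero _ hp.ne_zero) (pow_ne_zero _ t0), Nat.factorization_pow,
    Finsupp.add_apply, Finsupp.smul_apply, hp.factorization_self, smul_eq_mul] at this
  omega

omit he in
theorem card_pow (X : AddSubgroup T) (p i : ℕ) :
    Nat.card (X ⊓ (mu T (p ^ i)).ker :) ≤ Nat.card (X ⊓ (mu T p).ker :) ^ i := by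
  induction i with
  | zero =>
    refine (AddSubgroup.card_le_of_le (K := ⊥) fun x h => ?_).trans (by simp)
    simpa using h.2
  | succ i ih =>
    rw [card_split _ (mu T p), pow_succ]
    refine Nat.mul_le_mul ((AddSubgroup.card_le_of_le ?_).trans ih)
      (AddSubgroup.card_le_of_le fun x h => ⟨h.1.1, h.2⟩)
    rintro _ ⟨x, h, rfl⟩
    exact ⟨X.nsmul_mem h.1 p, (mul_nsmul' x _ p).symm.trans h.2⟩

omit he in
/-- freeness by counting -/
theorem free_of {X : AddSubgroup T} {p i : ℕ} (kl : ∀ x ∈ X, p ^ i • p ^ i • x = 0)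
    (c : Nat.card (X ⊓ (mu T p).ker :) ^ (2 * i) ≤ Nat.card X) :
    ∀ x ∈ X, p ^ i • x = 0 → ∃ a ∈ X, p ^ i • a = x := by
  have e : X.map (mu T (p ^ i)) = X ⊓ (mu T (p ^ i)).ker := by
    refine AddSubgroup.eq_of_le_of_card_ge ?_ ((card_pow X p i).trans ?_)
    · rintro _ ⟨x, h, rfl⟩
      exact ⟨X.nsmul_mem h _, kl x h⟩
    · rw [card_split X (mu T (p ^ i)), two_mul, pow_add] at c
      exact Nat.le_of_mul_le_mul_right (c.trans (Nat.mul_le_mul_left _ (card_pow X p i)))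
        (pow_pos Nat.card_pos _)
  exact fun x h k => show x ∈ X.map (mu T (p ^ i)) from e ▸ ⟨h, k⟩

omit he in
/-- values in `ZMod n` -/
theorem ex_e (n : ℕ) [NeZero n] : ∃ e : ZMod n →+ DD, Function.Injective e :=
  ⟨AddMonoidHom.toMultiplicativeLeft.symm (ZMod.stdAddChar (N := n)).toMonoidHom.toHomUnits,
    fun _ _ h => ZMod.injective_stdAddChar (congrArg Units.val h)⟩

end Vale.Agent.P014Y.Pk
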