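import Vale.Agent.P014Y.Pk.Cor
import Vale.Agent.P014Y.St0
import Vale.Agent.P014T.Lc.Vol

/-! # P014Y, block PARK: **the parity of the Selmer group modulo `pp`** (helper82) -/

set_option autoImplicit false
set_option linter.all false

open scoped Classical Pointwise

noncomputable section

namespace Vale.Agent.P014Y.Pk

open Vale.Agent.P014U Cp
open NumberField
open Vale.Agent.P022 (Qb GQ IsConj)
open Vale.Agent.P022D.W (dec)
open Vale.Agent.P004M.TE (Pt ga ga_mul ga_one)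
open Bt (dd Zl Km Z0 Zs Zk dd_apply mem_Zs)
open P014T.Wm (Fx)
open Ba (Tk Tp mem_Tk)
open Cp.Bb (h0 Cm)
open Kx (Pl sh)
open Top (sel Rk1 PARK)

variable [Pp]

section

variable {F : Type} [AddCommGroup F]

theorem tor_le {x : F} (h : IsOfFinAddOrder x) : x ∈ R2 F ⊔ Tp F := by
  obtain ⟨n, n0, hn⟩ := isOfFinAddOrder_iff_nsmul_eq_zero.1 h
  obtain ⟨j, m, om, rfl⟩ := Nat.exists_eq_pow_mul_and_not_dvd n0.ne' pp one_lt.ne'
  obtain ⟨v, w, b⟩ := Nat.isCoprime_iff_coprime.2 (pp_prime.coprime_iff_not_dvd.2 om)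
  refine AddSubgroup.mem_sup.2 ⟨_, ⟨v • x, rfl⟩, w • m • x, (Tp F).zsmul_mem ⟨j, by rwa [← mul_smul]⟩ w, ?_⟩
  show pp • v • x + _ = x
  linear_combination (norm := module) b • x

theorem idx1 {y : F} (n : ¬ IsOfFinAddOrder y) (g : ∀ x, ∃ n : ℤ, IsOfFinAddOrder (x - n • y)) :
    (R2 F ⊔ Tp F).index = pp := by
  have k {x : F} : (x : F ⧸ (R2 F ⊔ Tp F)) = 0 ↔ _ := QuotientAddGroup.eq_zero_iff _
  rw [← addOrderOf_eq_prime (p := pp) (x := (y : F ⧸ (R2 F ⊔ Tp F))) (by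
      rw [← QuotientAddGroup.mk_nsmul, k]; exact AddSubgroup.mem_sup_left ⟨y, rfl⟩) fun a => ?_,
    ← Nat.card_zmultiples, (AddSubgroup.eq_top_iff' (AddSubgroup.zmultiples _)).2 fun q => ?_,
    AddSubgroup.card_top]
  · rfl
  · obtain ⟨x, rfl⟩ := QuotientAddGroup.mk_surjective q
    exact (g x).imp fun i a => (sub_eq_zero.1 (k.2 (tor_le a))).symm
  · obtain ⟨_, ⟨u, rfl⟩, t, ⟨j, a⟩, e⟩ := AddSubgroup.mem_sup.1 (k.1 a)
    obtain ⟨i, b⟩ := g u
    have c := (b.nsmul (n := pp)).add (isOfFinAddOrder_iff_nsmul_eq_zero.2 ⟨_, pow_pos pp_pos j, a⟩)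
    have e' : pp • u + t = y := e
    rw [show pp • (u - i • y) + t = (1 - pp * i) • y by linear_combination (norm := module) e'] at c
    obtain ⟨s, s0, d⟩ := isOfFinAddOrder_iff_zsmul_eq_zero.1 c
    refine n (isOfFinAddOrder_iff_zsmul_eq_zero.2 ⟨_, mul_ne_zero s0 fun z => ?_, (mul_zsmul ..).trans d⟩)
    exact one_lt.ne' (Int.natCast_dvd_natCast.1 ⟨i, sub_eq_zero.1 z⟩ |> Nat.dvd_one.1)

end

variable {A B : ℤ} {S : Finset ℕ} {P : ℕ → Ideal (𝓞 Qb)} {c : GQ} (h : Pl A B S P) (hc : IsConj c)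
include h hc

/-- a power of `pp` kills the group of Tate and Shafarevich -/
theorem ex_e (s : sh A B S c P ≠ 0) : ∃ e, ∀ x ∈ Sl A B, pp ^ e • x ∈ Km A B ⊤ := by
  obtain ⟨e, m, om, k⟩ := Nat.exists_eq_pow_mul_and_not_dvd s pp one_lt.ne'
  refine ⟨e, fun x a => ?_⟩
  obtain ⟨n, p⟩ := mem_Zl.1 (mem_Sl.1 a).1
  obtain ⟨t, t1, t2⟩ := frm hc p
  have d : dd A B t ∈ Km A B ⊤ := ⟨t, fun _ _ => rfl⟩
  have b := (AddSubgroup.nsmul_relIndex_mem (Zk A B S c) ((zs_all h).2 ⟨sub_mem a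
    (dd_sl (t1 ▸ zero_mem _)), sub_eq_zero.2 t2⟩)).2
  rw [show (Zk A B S c).relIndex _ = _ from k, nsmul_sub] at b
  have b2 := add_mem b (nsmul_mem d (pp ^ e * m))
  obtain ⟨v, w, r⟩ := Nat.isCoprime_iff_coprime.2 ((pp_prime.coprime_iff_not_dvd.2 om).pow_left n)
  have z : pp ^ n • x = 0 := funext fun g => p.tr g trivial
  rw [sub_add_cancel] at b2
  rw [show pp ^ e • x = w • (pp ^ e * m) • x by
    linear_combination (norm := module) (v * pp ^ e : ℤ) • z - (pp ^ e : ℤ) • r • x]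
  exact (Km A B ⊤).zsmul_mem b2 w

/-- the frame -/
theorem sel_eq : sel A B S c P * pp = Nat.card ↥(Sl A B ⊓ Tk _ 1) := by
  have hD : 4 * (A : ℚ) ^ 3 + 27 * (B : ℚ) ^ 2 ≠ 0 := by exact_mod_cast h.disc
  let ev := Pi.evalAddMonoidHom (fun _ : GQ => Pt A B) c
  let q : {z // z ∈ Zs A B S c P ∧ pp • z = 0} ≃ ↥(ev.ker ⊓ (Sl A B ⊓ Tk _ 1)) :=
    Equiv.subtypeEquivRight fun z => ⟨fun a => ⟨((zs_all h).1 a.1).2, ((zs_all h).1 a.1).1,
      (w1 _).trans a.2⟩, fun a => ⟨(zs_all h).2 ⟨a.2.1, a.1⟩, (w1 _).symm.trans a.2.2⟩⟩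
  rw [← Ba.card_map ev, sel, Nat.card_congr q, show (Sl A B ⊓ Tk _ 1).map ev = Cm A B c from
    AddSubgroup.ext fun x => ⟨fun ⟨z, m, e⟩ => e ▸ ?_, fun m => ?_⟩, (card_cm hD hc).1]
  · have p := zn_sl m.1 m.2
    have := p.co c trivial c trivial
    rw [conj_sq hc, p.one] at this
    exact ⟨(w1 _).symm.trans (p.tr c trivial), eq_neg_of_add_eq_zero_right this.symm⟩
  · obtain ⟨k, e⟩ := pp_odd
    have t : pp ^ 1 • k • x = 0 := by rw [smul_comm, w1, m.1, nsmul_zero]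
    refine ⟨dd A B (k • x), ⟨dd_sl (t ▸ zero_mem _), mem_Tk.2 (by
      rw [← map_nsmul, t, map_zero])⟩, ?_⟩
    show ga c (k • x) - k • x = x
    have := m.1
    rw [e] at this
    rw [map_nsmul, m.2]
    linear_combination (norm := module) -this

/-- **parity for any rank and any image**: `pp ^ r` is the index of the multiples and the torsion -/
theorem par (s : sh A B S c P ≠ 0) {r : ℕ} (i : (R2 (Fx A B ⊤) ⊔ Tp _).index = pp ^ r) :
    ∃ k, sel A B S c P = pp ^ (r + 1 + 2 * k) := by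
  have hD : 4 * (A : ℚ) ^ 3 + 27 * (B : ℚ) ^ 2 ≠ 0 := by exact_mod_cast h.disc
  obtain ⟨e, he⟩ := ex_e h hc s
  obtain ⟨f, k, c1⟩ := core hD hc he
  have := fin_tp hD (h.ov pp h.two)
  have : Finite (Tp (Fx A B ⊤)) := Finite.of_injective (fun x => (⟨⟨x.1.1, fun g _ => x.1.2 g trivial⟩,
    x.2.elim fun j a => ⟨j, Subtype.ext (congrArg Subtype.val a :)⟩⟩ : Tp (Fx A B (dec (P pp)))))
    fun _ _ a => Subtype.ext (Subtype.ext (congrArg (·.1.1) a))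
  have c2 := (Nat.card_congr (Equiv.subtypeUnivEquiv fun y : ↥(Sl A B ⊓ Tk _ 1) =>
    ⟨1, Subtype.ext y.2.2⟩)).symm.trans (P014T.Lc.card_pp _ pp)
  rw [← idx_two, i, ← h0] at c1
  obtain ⟨m, c3⟩ := expo (r := r + 2) (c := k) (c2.symm.trans (Nat.eq_of_mul_eq_mul_right
    (Nat.pos_of_ne_zero (Bb.h0_ne h.disc ⊤)) (c1.trans (by ring))))
  refine ⟨m, Nat.eq_of_mul_eq_mul_right pp_pos ?_⟩
  rw [sel_eq h hc, c2, c3]
  ring

omit h hc

/-- **PARK** -/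
theorem park : PARK := fun A B S P c h hc _ s => ⟨fun f => (par h hc s (r := 0) (by
    rw [(AddSubgroup.eq_top_iff' _).2 fun x => tor_le (isOfFinAddOrder_of_finite x),
      AddSubgroup.index_top, pow_zero])).imp fun k e => by rw [e, zero_add, add_comm],
  fun ⟨y, m, n, g⟩ => (par h hc s (r := 1) (by
    have i := (Fx A B ⊤).subtype_injective
    rw [pow_one]
    exact idx1 (y := ⟨y, m⟩) (mt i.isOfFinAddOrder_iff.2 n) fun x =>
      (g x x.2).imp fun _ a => i.isOfFinAddOrder_iff.1 a)).elim fun k e => ⟨k + 1, by rw [e]; ring⟩⟩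

end Vale.Agent.P014Y.Pk
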