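import Vale.Agent.P014Y.Pk.Glo

/-! # P014Y, block PARK: the Selmer group modulo `pp` and the rational points (helper82) -/

set_option autoImplicit false
set_option linter.all false

open scoped Classical Pointwise

noncomputable section

namespace Vale.Agent.P014Y.Pk

open Vale.Agent.P014U Cp
open NumberField Matrix
open Vale.Agent.P022 (Qb GQ IsConj)
open Vale.Agent.P022K
open Vale.Agent.P022K.G2 (In)
open Vale.Agent.P022D.W (dec)
open Vale.Agent.P022E.GW (Ov)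
open Vale.Agent.P004M.TE (Pt ga ga_mul ga_one)
open Ki (wp tor_map)
open Bt (dd Zl Km Z0 Zs Zk Z0_le dd_apply mem_Zs)
open P014T.Wm (Fx)
open Ba (Tk Tp Dv Zf mem_Zf mem_Tk mu)
open Cp.Bb (Lr Yl h0 Cm SQ)
open Kx (Pl)
open Vale.Agent.P014U.Iv (iv)

variable [Pp] {A B : ℤ} {S : Finset ℕ} {P : ℕ → Ideal (𝓞 Qb)} {c : GQ} {a : GQ → Pt A B} {n : ℕ}

theorem zn_sl (m : a ∈ Sl A B) (t : pp ^ n • a = 0) : Zn ⊤ n a :=
  .of (mem_Sl.1 m).1 fun g _ => congrFun t g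

theorem zn_z {z : Z0 A B S c} (t : pp ^ n • z = 0) : Zn ⊤ n z.1 :=
  .of (Z0_le S c ⊤ z.2) fun g _ => congrFun (congrArg Subtype.val t) g

variable (hD : 4 * (A : ℚ) ^ 3 + 27 * (B : ℚ) ^ 2 ≠ 0) (hc : IsConj c)
include hD hc

/-- a set of primes which sees all Selmer classes -/
theorem ex_t : ∃ S P, Lr A B S ∧ (∀ l ∈ S, Ov l (P l)) ∧
    ∀ a ∈ Sl A B, pp • a = 0 → Kp S P a 0 → a ∈ Bo A B := by
  have hZ : 4 * A ^ 3 + 27 * B ^ 2 ≠ 0 := by exact_mod_cast hD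
  obtain ⟨S, p, q⟩ := Bb.ex_lr hZ
  choose! P hP using fun (l : ℕ) (h : l.Prime) => P022.H916.exists_prime h
  have o (l : ℕ) (h : l.Prime) : Ov l (P l) := ⟨h, hP l h⟩
  have L := q S subset_rfl p
  have f := Bb.fin0 hZ L hc fun l m => o l (p l m)
  let X := {a // a ∈ Sl A B ∧ pp • a = 0 ∧ a ∉ Bo A B}
  have : Finite X := Finite.of_injective (fun a : X => (⟨⟨a.1, (mem_Zs.1 ((zs_one (pl_of hZ L
    fun l m => o l (p l m))).2 a.2.1)).1⟩, Subtype.ext ((w1 _).trans a.2.2.1)⟩ : Tk (Z0 A B S 1) 1))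
    fun _ _ e => Subtype.ext (congrArg (·.1.1) e)
  have := Fintype.ofFinite X
  choose l l1 l2 using fun a : X => one hD (zn_sl a.2.1 ((w1 _).trans a.2.2.1)) a.2.2.2
  have pr : ∀ k ∈ S ∪ Finset.univ.image l, k.Prime := fun k m => (Finset.mem_union.1 m).elim (p k)
    fun m => (Finset.mem_image.1 m).elim fun a e => e.2 ▸ l1 a
  refine ⟨_, P, q _ Finset.subset_union_left pr, fun k m => o k (pr k m), fun a m t k =>
    by_contra fun n => ?_⟩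
  obtain ⟨Q, e, e'⟩ := k ⟨l ⟨a, m, t, n⟩, Finset.mem_union_right _
    (Finset.mem_image_of_mem _ (Finset.mem_univ _))⟩
  exact l2 _ _ (o _ (l1 _)) ⟨Q, e', e⟩

omit hc in
theorem zf (L : Lr A B S) (o : ∀ l ∈ S, Ov l (P l)) {z : Z0 A B S 1} :
    z ∈ Zf (PR hD o S 1) ↔ z.1 ∈ Sl A B :=
  mem_Zf.trans ((PR_zs hD o 1 z).trans (zs_one (pl_of (by exact_mod_cast hD) L o)))

/-- **the pairing** -/
theorem ex_ct (L : Lr A B S) (o : ∀ l ∈ S, Ov l (P l))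
    (st : ∀ a ∈ Sl A B, pp • a = 0 → Kp S P a 0 → a ∈ Bo A B) :
    ∃ κ : Sk (PR hD o S 1) 1 →+ Yl A B S P ⧸ RY A B S P, Ct κ := by
  have hZ : 4 * A ^ 3 + 27 * B ^ 2 ≠ 0 := by exact_mod_cast hD
  have H := Ki.pr hD
  have t1 (a : Sk (PR hD o S 1) 1) : pp • a.1.1 = 0 := (w1 _).symm.trans (congrArg Subtype.val a.2.2)
  choose y hy using fun a : Sk (PR hD o S 1) 1 => ex_kp o ((zf hD L o).1 a.2.1) (t1 a)
  let κ : Sk (PR hD o S 1) 1 →+ Yl A B S P ⧸ RY A B S P :=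
    .mk' (fun a => y a) fun a b => (hy (a + b)).iff.2 ((hy a).add (hy b))
  have kk (a) {w : Yl A B S P} (e : w = κ a) : Kp S P a.1.1 w := (hy a).iff.1 e.symm
  have rc {n} {a b : Z0 A B S 1} (p : pp ^ n • a = 0) (q : pp ^ n • b = 0) :
      ∑ l : S, iv (P l) (cp (wp hD) n a b) = 0 :=
    (Finset.sum_coe_sort S fun l => iv (P l) (cp (wp hD) n a b)).trans (rec1 hD (fun l m => L.bad l
      (Nat.prime_of_mem_primeFactors m) (Int.natCast_dvd.2 (Nat.dvd_of_mem_primeFactors m))) P o hc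
      (zn_z p) (zn_z q) a.2.2.2.2.1 b.2.2.2.2.1)
  obtain ⟨i0, i1⟩ := ry_le hD o L.two
  obtain ⟨-, m1⟩ := card_cm hD hc
  obtain ⟨φ, hφ⟩ := id hc
  obtain ⟨f1, fs, g⟩ := Bb.glob hD L hφ o
  have u := up (κ := κ) i0 fun a w e z t => by
    rw [PR_apply, ← rc a.2.2 t]
    refine Finset.sum_congr rfl fun l _ => (kk a e l).elim fun Q k => ?_
    rw [pr_eq H _ _ _ ((w1 Q).trans k.2) ((zn_z t).mono le_top)]
    exact (ivP (o l l.2)).congr fun g m j _ => by rw [cp, cp, k.1 g m]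
  have b := card_bo hD
  have : Finite (Bo A B) := Nat.finite_of_card_ne_zero
    (left_ne_zero_of_mul (b.trans_ne (pow_ne_zero _ pp_ne)))
  have k1 : Nat.card κ.ker ≤ Nat.card (Bo A B) := Nat.card_le_card_of_injective
    (fun a => ⟨a.1.1.1, st _ ((zf hD L o).1 a.1.2.1) (t1 _) (kk _ (Eq.symm a.2))⟩)
    fun _ _ e => Subtype.ext (Subtype.ext (Subtype.ext (congrArg (·.1) e)))
  have k2 : (RY A B S P).index * Nat.card κ.ker * h0 A B ⊤ ≤
      h0 A B (Subgroup.zpowers c) * (∏ l : S, h0 A B (dec (P l))) * pp ^ 2 := by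
    rw [mul_assoc, ← b]
    exact Nat.mul_le_mul (i1.trans (Nat.mul_le_mul_right _ m1)) (Nat.mul_le_mul_right _ k1)
  have k3 : Nat.card (SQ hD S φ P) ≤ 1 := Nat.le_of_mul_le_mul_right (by
    rw [one_mul, ← mul_assoc]; exact g.trans ((Nat.mul_le_mul_right _ u).trans k2))
    (Nat.pos_of_ne_zero (mul_ne_zero (mul_ne_zero (Bb.h0_ne hZ _) (Finset.prod_ne_zero_iff.2
      fun _ _ => Bb.h0_ne hZ _)) (pow_ne_zero _ pp_ne)))
  rw [le_antisymm k3 Nat.card_pos, one_mul] at g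
  refine ⟨κ, f1, i0, fun i x p z q a b w w' e e' k k' => ?_, fun s m => ?_,
    Nat.le_of_mul_le_mul_right (k2.trans g) (Nat.pos_of_ne_zero (Bb.h0_ne hZ _))⟩
  · rw [PR_apply, PR_apply, ← Finset.sum_add_distrib, ← rc p.2 q.2]
    refine Finset.sum_congr rfl fun l _ => (kk a k l).elim fun Q r => (kk b k' l).elim fun Q' r' => ?_
    have km {x : Z0 A B S 1} (p : mu _ 1 x ∈ Zf (PR hD o S 1)) : pp • x.1 ∈ Km A B (dec (P l)) :=
      w1 x.1 ▸ (mem_Sl.1 ((zf hD L o).1 p)).2 l _ (o l l.2)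
    exact (spl hD (o l l.2) (ivP (o l l.2)) ((zn_z p.2).mono le_top) ((zn_z q.2).mono le_top) (km p.1)
      (km q.1) (fun g m => (congrFun (congrArg Subtype.val e) g).trans (r.1 g m))
      (fun g m => (congrFun (congrArg Subtype.val e') g).trans (r'.1 g m)) r.2 r'.2).symm
  · have pl := pl_of hZ L o
    obtain ⟨n, p⟩ := zn_z0 s.2
    obtain ⟨t, t1, t2⟩ := frm hc p
    obtain ⟨t, rfl⟩ := H.dv t
    have d1 : dd A B t ∈ Sl A B := dd_sl (n := n + 1) (by rw [pow_succ, mul_smul, t1]; exact zero_mem _)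
    have d2 := sub_mem ((zf hD L o).1 m) (nsmul_mem d1 pp)
    obtain ⟨d3, d4⟩ := mem_Zs.1 ((zs_all (c := c) pl).2 ⟨d2, by
      rw [← map_nsmul]; exact sub_eq_zero.2 t2⟩)
    obtain ⟨hf, f0, f2⟩ := Bb.ex_hf hD
    have sh {y} (hy : y ∈ Z0 A B S c) (k : ∀ l ∈ S, y ∈ Km A B (dec (P l))) := Bb.be_sh hD hφ hy
      (fun g => f2 _) (Bb.nc_of L hy f2) (fun g e => by rw [e, f0]) fun l m =>
        Bb.hv hD (o l m) (ivP (o l m)) ⟨y, Z0_le S c _ hy⟩ fun t _ => pr_km hD (o l m) _ t _ (k l m)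
    have ss := (Finite.card_le_one_iff_subsingleton.1 k3).elim ⟨_, _, sh d3 d4, rfl⟩
      ⟨_, _, sh (zero_mem _) fun _ _ => zero_mem _, rfl⟩
    obtain ⟨z, z1, z2⟩ := Bb.be_b2 hD (zero_mem _) (fun g => f2 _) (Bb.nc_of (c := c) L (zero_mem _) f2) d3
      (fun g => f2 _) (Bb.nc_of L d3 f2) ((Submodule.Quotient.eq _).1 (congrArg Subtype.val ss))
    refine ⟨⟨z, z1⟩ + ⟨_, (mem_Zs.1 ((zs_one pl).2 d1)).1⟩, Subtype.ext ?_⟩
    show pp • (z + dd A B t) = s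
    rw [nsmul_add, z2, neg_zero, zero_add, sub_add_cancel]

/-- **the Selmer group modulo `pp`** -/
theorem core {e : ℕ} (he : ∀ x ∈ Sl A B, pp ^ e • x ∈ Km A B ⊤) :
    Finite ↥(Sl A B ⊓ Tk _ 1) ∧ ∃ k, Nat.card ↥(Sl A B ⊓ Tk _ 1) * h0 A B ⊤ =
      pp ^ 2 * (R2 (Fx A B ⊤)).index * (k * k) := by
  obtain ⟨S, P, L, o, st⟩ := ex_t hD hc
  obtain ⟨κ, h⟩ := ex_ct hD hc L o st
  have pl := pl_of (by exact_mod_cast hD) L o
  have z0 {x} (m : x ∈ Sl A B) : x ∈ Z0 A B S 1 := (mem_Zs.1 ((zs_one pl).2 m)).1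
  obtain ⟨k, c1⟩ := h.all e
  have := h.fin
  have : Finite (Sk (PR hD o S 1) 1) :=
    Finite.of_injective _ (AddSubgroup.inclusion_injective inf_le_right)
  have i := (Z0 A B S 1).subtype_injective
  rw [← AddSubgroup.card_map_of_injective i, ← AddSubgroup.card_map_of_injective (K := Fl _ _) i,
    show (Sk (PR hD o S 1) 1).map _ = Sl A B ⊓ Tk _ 1 from AddSubgroup.ext fun x =>
      ⟨fun ⟨z, m, e⟩ => e ▸ ⟨(zf hD L o).1 m.1, congrArg Subtype.val m.2⟩, fun m =>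
        ⟨⟨x, z0 m.1⟩, ⟨(zf hD L o).2 m.1, Subtype.ext m.2⟩, rfl⟩⟩,
    show (Fl (PR hD o S 1) e).map _ = (Gm A B ⊤).map (dd A B) from AddSubgroup.ext fun x => ⟨?_, ?_⟩,
    ← AddSubgroup.relIndex_ker, show (dd A B).ker = Fx A B ⊤ from AddSubgroup.ext fun Q =>
      Bt.ker_dd.trans ⟨fun a g _ => a g, fun a g => a g trivial⟩] at c1
  · refine ⟨Finite.of_injective (fun x => (⟨⟨x.1, z0 x.2.1⟩, Subtype.ext x.2.2⟩ : Tk (Z0 A B S 1) 1))
      fun _ _ e => Subtype.ext (congrArg (·.1.1) e), k, ?_⟩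
    rw [c1, ← kum hD, h0]
    ring
  · rintro ⟨_, ⟨s, m, rfl⟩, rfl⟩
    obtain ⟨Q, r⟩ := he _ ((zf hD L o).1 m.1)
    refine ⟨Q, fun g _ => ?_, funext fun g => (r g trivial).symm⟩
    show ga g (pp • Q) = pp • Q
    rw [map_nsmul, ← sub_eq_zero, ← nsmul_sub, ← r g trivial, Pi.smul_apply, ← mul_smul, ← pow_succ']
    exact congrFun (congrArg Subtype.val m.2) g
  · rintro ⟨Q, m, rfl⟩
    obtain ⟨Q, rfl⟩ := (Ki.pr hD).dvp e Q
    have m' : pp ^ (e + 1) • Q ∈ Fx A B ⊤ := by rw [pow_succ', mul_smul]; exact m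
    exact ⟨_, ⟨⟨_, z0 (dd_sl m')⟩, ⟨(zf hD L o).2 (dd_sl m'), Subtype.ext (funext fun g =>
      (zn_dd m').tr g trivial)⟩, rfl⟩, (map_nsmul (dd A B) _ _).symm⟩

end Vale.Agent.P014Y.Pk
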