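import Vale.Agent.P014U.Ba.Cnt

/-! # P014Y, block PARK: the algebra of the pairing of Cassels and Tate (helper82) -/

set_option autoImplicit false
set_option linter.all false

noncomputable section

namespace Vale.Agent.P014Y.Pk

open Vale.Agent.P014U Ba

variable [Pp]

/-- the radical of a skew pairing has square index -/
theorem sq {T : Type} [AddCommGroup T] [Finite T] (ht : ∀ t : T, t ∈ Tp T) (β : T →+ T →+ Dv)
    (sk : ∀ a b, β a b + β b a = 0) : ∃ c, β.ker.index = c * c := by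
  obtain ⟨M, ⟨k, iso⟩, mx⟩ := Set.Finite.exists_maximal (Set.toFinite
    {M : AddSubgroup T | β.ker ≤ M ∧ ∀ a ∈ M, ∀ b ∈ M, β a b = 0})
    ⟨β.ker, le_rfl, fun a ha b _ => DFunLike.congr_fun ha b⟩
  have e := (fd (fun t : M => (ht t).imp fun _ a => Subtype.ext a) (β.comp M.subtype)).1
  rw [show (β.comp M.subtype).flip.ker = M from AddSubgroup.ext fun t => ⟨fun h => ?_,
    fun h => AddMonoidHom.ext fun m => iso m m.2 t h⟩] at e
  · exact ⟨M.index, by
      rw [← AddSubgroup.relIndex_mul_index k]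
      exact congrArg (· * _) e.symm⟩
  have h1 : ∀ m ∈ M, β m t = 0 := fun m a => DFunLike.congr_fun h ⟨m, a⟩
  have h2 : ∀ m ∈ M, β t m = 0 := fun m a => by simpa [h1 m a] using sk m t
  have h3 : β t t = 0 := (dv_tor _).elim fun _ a => half a ((two_nsmul _).trans (sk t t))
  refine mx (y := M ⊔ AddSubgroup.zmultiples t) ⟨k.trans le_sup_left, fun a ha b hb => ?_⟩ le_sup_left
    (AddSubgroup.mem_sup_right (AddSubgroup.mem_zmultiples t))
  obtain ⟨m, p, _, ⟨i, rfl⟩, rfl⟩ := AddSubgroup.mem_sup.1 ha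
  obtain ⟨n, q, _, ⟨j, rfl⟩, rfl⟩ := AddSubgroup.mem_sup.1 hb
  simp [iso m p n q, h1 m p, h2 n q, h3]

variable {Y Z : Type} [AddCommGroup Y] [AddCommGroup Z] (PR : Y →+ Z →+ Dv)

/-- the Selmer elements of level `i` -/
abbrev Sk (i : ℕ) : AddSubgroup Z := Zf PR ⊓ Tk Z i

/-- the filtration -/
def Fl (i : ℕ) : AddSubgroup Z := (Sk PR (i + 1)).map (mu Z i)

/-- the lifts -/
def Hl (i : ℕ) : AddSubgroup Z := (Zf PR).comap (mu Z 1) ⊓ Tk Z (i + 1)

variable {PR} {R : AddSubgroup Y}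

theorem fl_le (i : ℕ) : Fl PR i ≤ Sk PR 1 := by
  rintro _ ⟨s, ⟨a, b⟩, rfl⟩
  exact ⟨nsmul_mem a _, show pp ^ 1 • pp ^ i • s = 0 by rw [smul_smul, ← pow_add, add_comm]; exact b⟩

theorem fl_zero : Fl PR 0 = Sk PR 1 := le_antisymm (fl_le 0) fun s a => ⟨s, a, by simp [mu_apply]⟩

theorem cix {F : Type} [AddCommGroup F] (κ : F →+ Y ⧸ R) :
    (κ.range.comap (QuotientAddGroup.mk' R)).index * Nat.card κ.range = R.index := by
  rw [AddSubgroup.index_comap_of_surjective _ (QuotientAddGroup.mk'_surjective R),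
    AddSubgroup.index_mul_card]
  rfl

theorem lk (H : AddSubgroup Z) [Finite H] {k : ℕ} (h : H ≤ Tk Z k) :
    Nat.card ↥(Zf PR ⊓ H) * (PR.flip.comp H.subtype).flip.ker.index = Nat.card H := by
  rw [(fd (fun t : H => ⟨k, Subtype.ext (h t.2)⟩) _).1, ← card_mul_rel (inf_le_right (a := Zf PR) (b := H)),
    AddSubgroup.inf_relIndex_right]
  rfl

variable {κ : Sk PR 1 →+ Y ⧸ R}

/-- the upper bound at level one -/
theorem up [Finite (Tk Z 1)] (i0 : R.index ≠ 0)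
    (h : ∀ a (y : Y), y = κ a → ∀ z ∈ Tk Z 1, PR y z = 0) :
    Nat.card (Tk Z 1) ≤ R.index * Nat.card κ.ker := by
  rw [← lk (PR := PR) (Tk Z 1) le_rfl, ← cix κ, ← κ.ker.card_mul_index, AddSubgroup.index_ker]
  rw [← cix κ] at i0
  refine le_of_le_of_eq (Nat.mul_le_mul_left _ (Nat.le_of_dvd (Nat.pos_of_ne_zero
    (left_ne_zero_of_mul i0)) (AddSubgroup.index_dvd_of_le fun y ⟨a, e⟩ =>
      AddMonoidHom.ext fun z => h a y e.symm z z.2))) ?_
  ring

variable (κ) in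
/-- the data of the pairing -/
structure Ct : Prop where
  fin : Finite (Tk Z 1)
  idx : R.index ≠ 0
  sk : ∀ i, ∀ x ∈ Hl PR (i + 1), ∀ z ∈ Hl PR (i + 1), ∀ (a b : Sk PR 1) (y y' : Y),
    pp ^ (i + 1) • x = a → pp ^ (i + 1) • z = b → y = κ a → y' = κ b → PR y z + PR y' x = 0
  lift : ∀ s ∈ Zf PR, ∃ z, pp • z = s
  cnt : R.index * Nat.card κ.ker ≤ Nat.card (Tk Z 1)

theorem Ct.lev (h : Ct κ) (i : ℕ) : Nat.card (Tk Z 1) =
    (PR.flip.comp (Hl PR i).subtype).flip.ker.index * Nat.card (Fl PR i) := by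
  have := h.fin
  have f := fin_all (Z := Z)
  have g (H : AddSubgroup Z) (j) : Finite ↥(H ⊓ Tk Z j) :=
    Finite.of_injective _ (AddSubgroup.inclusion_injective inf_le_right)
  have : Finite (Hl PR i) := g _ _
  have c0 := lk (PR := PR) (Hl PR i) inf_le_right
  have c1 := card_map (mu Z 1) (Hl PR i)
  have c2 := card_map (mu Z i) (Sk PR (i + 1))
  rw [show Zf PR ⊓ Hl PR i = Sk PR (i + 1) from AddSubgroup.ext fun z => ⟨fun a => ⟨a.1, a.2.2⟩,
    fun a => ⟨a.1, nsmul_mem a.1 _, a.2⟩⟩, ← c2, ← c1, mu_ker, mu_ker,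
    show Tk Z i ⊓ Sk PR (i + 1) = Sk PR i from AddSubgroup.ext fun z => ⟨fun a => ⟨a.2.1, a.1⟩,
      fun a => ⟨a.2, a.1, pow_up i.le_succ a.2⟩⟩,
    show Tk Z 1 ⊓ Hl PR i = Tk Z 1 from inf_eq_left.2 fun z a => ⟨show pp ^ 1 • z ∈ Zf PR from
      mem_Tk.1 a ▸ zero_mem _, pow_up (by omega) a⟩,
    show (Hl PR i).map (mu Z 1) = Sk PR i from AddSubgroup.ext fun z => ⟨fun ⟨x, a, e⟩ => e ▸ ⟨a.1,
      show pp ^ i • pp ^ 1 • x = 0 by rw [smul_smul, ← pow_add]; exact a.2⟩, fun a =>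
      (h.lift z a.1).elim fun x e => have e' : pp ^ 1 • x = z := by rwa [pow_one]
        ⟨x, ⟨show pp ^ 1 • x ∈ Zf PR from e' ▸ a.1, show pp ^ (i + 1) • x = 0 by
          rw [pow_add, mul_smul, e']; exact a.2⟩, e'⟩⟩] at c0
  refine Nat.eq_of_mul_eq_mul_left (Nat.card_pos (α := Sk PR i)) ?_
  rw [mul_comm, ← c0, Fl]
  ring

/-- **one step** -/
theorem Ct.step (h : Ct κ) (i : ℕ) :
    ∃ c, Nat.card (Fl PR i) = Nat.card (Fl PR (i + 1)) * (c * c) := by
  have := h.fin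
  have f := fin_all (Z := Z)
  have g (H : AddSubgroup Z) (j) : Finite ↥(H ⊓ Tk Z j) :=
    Finite.of_injective _ (AddSubgroup.inclusion_injective inf_le_right)
  have : Finite (Hl PR i) := g _ _
  have : Finite (Fl PR i) := Finite.of_injective _ (AddSubgroup.inclusion_injective (fl_le i))
  let j := AddSubgroup.inclusion (fl_le (PR := PR) i)
  have ex (a : Fl PR i) : ∃ x ∈ Hl PR (i + 1), pp ^ (i + 1) • x = a := by
    obtain ⟨_, s, ⟨p, q⟩, rfl⟩ := a
    obtain ⟨x, rfl⟩ := h.lift s p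
    exact ⟨x, ⟨show pp ^ 1 • x ∈ Zf PR by rwa [pow_one], show pp ^ (i + 1 + 1) • x = 0 by
      rw [pow_succ, mul_smul]; exact q⟩, by rw [pow_succ, mul_smul]; rfl⟩
  choose x x1 x2 using ex
  choose y hy using fun a : Fl PR i => QuotientAddGroup.mk_surjective (κ (j a))
  have s0 (a) {w : Y} (e : w = κ (j a)) {z} (m : z ∈ Hl PR i) : PR w z = 0 := by
    simpa using h.sk i _ (x1 a) z ⟨m.1, pow_up (Nat.le_succ _) m.2⟩ (j a) 0 w 0 (x2 a) m.2 e
      (map_zero κ).symm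
  have s1 (a) {z z'} (m : z ∈ Hl PR (i + 1)) (m' : z' ∈ Hl PR (i + 1))
      (e : pp ^ (i + 1) • z = pp ^ (i + 1) • z') : PR (y a) z = PR (y a) z' := by
    rw [← sub_eq_zero, ← map_sub]
    exact s0 a (hy a) ⟨(sub_mem m m').1, (nsmul_sub ..).trans (sub_eq_zero.2 e)⟩
  have s2 (a b) {w : Y} (e : w = κ (j b)) : PR w (x a) + PR (y a) (x b) = 0 :=
    h.sk i _ (x1 b) _ (x1 a) (j b) (j a) _ _ (x2 b) (x2 a) e (hy a)
  have ad (a b b') : PR (y a) (x (b + b')) = PR (y a) (x b) + PR (y a) (x b') := by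
    rw [← map_add]
    exact s1 a (x1 _) (add_mem (x1 b) (x1 b')) (by rw [nsmul_add, x2, x2, x2]; rfl)
  let β : Fl PR i →+ Fl PR i →+ Dv := .mk' (fun a => .mk' (fun b => PR (y a) (x b)) (ad a))
    fun a a' => AddMonoidHom.ext fun b => by
      show PR (y (a + a')) (x b) = PR (y a) (x b) + PR (y a') (x b)
      rw [eq_neg_of_add_eq_zero_left (s2 b _ (hy _)), ad, eq_neg_of_add_eq_zero_left (s2 b a (hy _)),
        eq_neg_of_add_eq_zero_left (s2 b a' (hy _)), neg_add]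
  obtain ⟨c, hc⟩ := sq (fun a => ⟨1, Subtype.ext (fl_le i a.2).2⟩) β fun a b => s2 b a (hy a)
  let C := (κ.comp j).range.comap (QuotientAddGroup.mk' R)
  let L := (PR.flip.comp (Hl PR i).subtype).flip.ker
  have le : C ≤ L := fun w ⟨a, e⟩ => AddMonoidHom.ext fun z => s0 a e.symm z.2
  have c1 : C.index * _ = _ := cix (κ.comp j)
  have c2 : Nat.card (κ.comp j).ker ≤ Nat.card κ.ker := Nat.card_le_card_of_injective
    (fun a => ⟨j a.1, a.2⟩) fun a b e => Subtype.ext (Subtype.ext (congrArg (·.1.1) e))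
  have c3 : C.index ≤ L.index := by
    refine Nat.le_of_mul_le_mul_right (le_trans ?_ (h.cnt.trans_eq (h.lev i)))
      (Nat.card_pos (α := Fl PR i))
    rw [← c1, ← (κ.comp j).ker.card_mul_index, AddSubgroup.index_ker, mul_assoc, mul_comm (Nat.card _)]
    gcongr
  have c4 := AddSubgroup.relIndex_mul_index le
  have c5 : C.index ≠ 0 := left_ne_zero_of_mul (c1.trans_ne h.idx)
  have ge : L ≤ C := AddSubgroup.relIndex_eq_one.1 (le_antisymm (Nat.le_of_mul_le_mul_right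
    (by rw [c4, one_mul]; exact c3) (Nat.pos_of_ne_zero (right_ne_zero_of_mul (c4.trans_ne c5))))
    (Nat.pos_of_ne_zero (left_ne_zero_of_mul (c4.trans_ne c5))))
  have le' : Fl PR (i + 1) ≤ Fl PR i := by
    rintro _ ⟨s, ⟨p, q⟩, rfl⟩
    exact ⟨pp • s, ⟨nsmul_mem p _, show pp ^ (i + 1) • pp • s = 0 by
      rw [← mul_smul, ← pow_succ]; exact q⟩, by rw [mu_apply, mu_apply, pow_succ, mul_smul]⟩
  refine ⟨c, ?_⟩
  rw [← hc, ← card_mul_rel le', show β.ker = (Fl PR (i + 1)).addSubgroupOf _ from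
    AddSubgroup.ext fun a => ⟨fun k => ?_, fun ⟨s, ⟨p, q⟩, e⟩ => AddMonoidHom.ext fun b => ?_⟩]
  · rfl
  · obtain ⟨t, e⟩ := (fd (fun t : Hl PR i => ⟨i + 1, Subtype.ext t.2.2⟩)
      (PR.flip.comp (Hl PR i).subtype)).2 (PR.flip (x a)) fun w m => by
        obtain ⟨b, e⟩ := ge (AddMonoidHom.ext m)
        have := s2 a b e.symm
        rwa [show PR (y a) (x b) = 0 from DFunLike.congr_fun k b, add_zero] at this
    refine ⟨x a - t, ⟨?_, (Tk Z _).sub_mem (x1 a).2 (pow_up (Nat.le_succ _) t.2.2)⟩, ?_⟩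
    · exact (map_sub PR.flip _ _).trans (sub_eq_zero.2 e.symm)
    · rw [mu_apply, nsmul_sub, x2, mem_Tk.1 t.2.2, sub_zero]
      rfl
  · have := s2 a b (hy b)
    rwa [s1 b (x1 a) ⟨nsmul_mem p _, q⟩ ((x2 a).trans e.symm), mem_Zf.1 p, zero_add] at this

/-- **all steps** -/
theorem Ct.all (h : Ct κ) (i : ℕ) : ∃ c, Nat.card (Sk PR 1) = Nat.card (Fl PR i) * (c * c) := by
  induction i with
  | zero => exact ⟨1, by rw [fl_zero, mul_one, mul_one]⟩
  | succ i ih =>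
    obtain ⟨c, e⟩ := ih
    obtain ⟨d, k⟩ := h.step i
    exact ⟨d * c, by rw [e, k]; ring⟩

/-- the exponent -/
theorem expo {n r c : ℕ} (e : pp ^ n = pp ^ r * (c * c)) : ∃ m, n = r + 2 * m := by
  have c0 : c ≠ 0 := fun z => pow_ne_zero n pp_ne (by rw [e, z, mul_zero, mul_zero])
  have := congrArg (padicValNat pp) e
  rw [padicValNat.mul (pow_ne_zero _ pp_ne) (mul_ne_zero c0 c0), padicValNat.mul c0 c0,
    padicValNat.prime_pow, padicValNat.prime_pow] at this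
  exact ⟨_, by rw [this, two_mul]⟩

end Vale.Agent.P014Y.Pk
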