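import Vale.Agent.P014U.Cp.Nn
import Vale.Agent.P014U.Cp.Hv

/-! # P014Y, block PARK: local lemmas (helper82) -/

set_option autoImplicit false
set_option linter.all false

open scoped Classical Pointwise

noncomputable section

namespace Vale.Agent.P014Y.Pk

open Vale.Agent.P014U Cp
open NumberField Matrix
open Vale.Agent.P022 (Qb GQ IsConj)
open Vale.Agent.P022K
open Vale.Agent.P022K.G2 (In)
open Vale.Agent.P022D.W (dec)
open Vale.Agent.P022E.GW (Ov)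
open L2 (W)
open Vale.Agent.P014U.X4S.Ga (K O Z2 B2)
open Vale.Agent.P014U.X4S.Aq
open Vale.Agent.P014U.X4F.Rc (b2_zero mq_zero)
open Vale.Agent.P004M.TE (Pt ga ga_mul ga_one)
open Ki (wp tor_map)
open Bt (dd Zl Km dd_apply)
open P014T.Wm (Fx)
open Ba (Tk Tp Dv)
open Vale.Agent.P014U.Iv (iv)

variable [Pp] {A B : ℤ} (hD : 4 * (A : ℚ) ^ 3 + 27 * (B : ℚ) ^ 2 ≠ 0) {D : Subgroup GQ} {l n : ℕ}
  {P : Ideal (𝓞 Qb)} {ι : (GQ → GQ → K) →+ K ⧸ O}

theorem w1 {F : Type} [AddCommGroup F] (x : F) : pp ^ 1 • x = pp • x := by rw [pow_one]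

variable (A B) in
/-- the points of which the multiple by `pp` is fixed -/
def Gm (D : Subgroup GQ) : AddSubgroup (Pt A B) :=
  (Fx A B D).comap (nsmulAddMonoidHom (α := Pt A B) pp)

include hD

theorem card_e : Nat.card (Tk (Pt A B) 1) = pp ^ 2 :=
  (Nat.card_congr (Equiv.ofBijective (fun v : W => (⟨vv hD v, vv_two hD v⟩ : Tk (Pt A B) 1))
    ⟨fun _ _ e => vv_inj hD (congrArg (·.1) e), fun x => ⟨_, Subtype.ext (vv_uv hD x.2)⟩⟩)).symm.trans
    (by simp)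

/-- the number of Kummer cocycles -/
theorem kum (D : Subgroup GQ) : (Fx A B D).relIndex (Gm A B D) * Nat.card (Tk (Fx A B D) 1) =
    pp ^ 2 * (R2 (Fx A B D)).index := by
  let μ : Gm A B D →+ Fx A B D :=
    ((nsmulAddMonoidHom pp).comp (Gm A B D).subtype).codRestrict _ fun Q => Q.2
  have c3 := idx_map μ (fun x => (Ki.pr hD).dv x.1 |>.elim fun Q e =>
    ⟨⟨Q, show pp • Q ∈ Fx A B D from e ▸ x.2⟩, Subtype.ext e⟩) ((Fx A B D).addSubgroupOf _)
  rwa [show ((Fx A B D).addSubgroupOf _).map μ = R2 _ from AddSubgroup.ext fun x =>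
      ⟨fun ⟨Q, a, e⟩ => ⟨⟨Q, a⟩, e⟩, fun ⟨u, e⟩ => ⟨⟨u, nsmul_mem u.2 pp⟩, u.2, e⟩⟩,
    show Nat.card (((Fx A B D).addSubgroupOf _).addSubgroupOf μ.ker) = Nat.card (Tk (Fx A B D) 1) from
      Nat.card_congr ⟨fun x => ⟨⟨x.1.1, x.2⟩, Subtype.ext ((w1 _).trans (congrArg Subtype.val x.1.2))⟩,
        fun x => ⟨⟨⟨x.1, nsmul_mem x.1.2 pp⟩, Subtype.ext ((w1 _).symm.trans
          (congrArg Subtype.val x.2))⟩, x.1.2⟩, fun _ => rfl, fun _ => rfl⟩,
    show Nat.card μ.ker = pp ^ 2 from (Nat.card_congr ⟨fun x => ⟨x.1.1, (w1 _).trans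
      (congrArg Subtype.val x.2)⟩, fun x => ⟨⟨x.1, show pp • x.1 ∈ Fx A B D from
        ((w1 _).symm.trans x.2).symm ▸ zero_mem _⟩, Subtype.ext ((w1 _).symm.trans x.2)⟩,
        fun _ => rfl, fun _ => rfl⟩).trans (card_e hD)] at c3

/-- **the local points modulo `pp`** -/
theorem idx_le (o : Ov l P) : (R2 (Fx A B (dec P))).index ≠ 0 ∧ (R2 (Fx A B (dec P))).index ≤
    (if l = pp then pp else 1) * Nat.card (Tk (Fx A B (dec P)) 1) := by
  have I := ivP o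
  have cl := G2.dec_closed P
  obtain ⟨_, c1⟩ := L2.cnt o (dt_ab hD) (rp_ro hD _) (ker_open hD)
  rw [card_tk hD] at c1
  let p := (pr (Ki.pr hD) I).flip.comp (jz hD (dec P))
  have c2 := (Ba.fd (fun z => ⟨1, Subtype.ext (funext fun g => funext fun i => by
    simp)⟩) p).1
  rw [show p.flip.ker = R2 _ from AddSubgroup.ext fun x => ⟨fun a => left1 hD cl (ld1 hD o) I x fun z =>
    DFunLike.congr_fun a z, fun ⟨u, e⟩ => AddMonoidHom.ext fun z => by
      have := pr_pow (Ki.pr hD) I u (jz hD _ z) (of_z1 hD z.2)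
      rwa [pow_one, show pp • u = x from e] at this⟩] at c2
  have zG : ∀ Q : Gm A B (dec P), Zn (dec P) 1 (dd A B Q) := fun Q => zn_dd ((w1 Q.1).symm ▸ Q.2)
  have c5 : (Fx A B (dec P)).relIndex (Gm A B (dec P)) ≤ Nat.card p.ker :=
    Nat.card_le_card_of_injective (fun q : Gm A B (dec P) ⧸ (Fx A B (dec P)).addSubgroupOf _ =>
      (⟨⟨_, to_z1 hD cl (zG q.out)⟩, AddMonoidHom.ext fun x => pr_km hD o I x _
        ⟨q.out, fun g m => vv_ind hD (zG _) m⟩⟩ : p.ker)) fun q q' e => by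
      rw [← q.out_eq', ← q'.out_eq', QuotientAddGroup.eq]
      intro g m
      have := (vv_ind hD (zG q.out) m).symm.trans ((congrArg (vv hD) (congrFun (congrArg (·.1.1) e)
        g)).trans (vv_ind hD (zG q'.out) m))
      rw [dd_apply, dd_apply] at this
      show ga g (-q.out.1 + q'.out.1) = -q.out.1 + q'.out.1
      rw [map_add, map_neg, ← sub_eq_zero, ← sub_eq_zero.2 this.symm]
      abel
  have c4 := AddSubgroup.card_mul_index p.ker
  rw [← c2] at c4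
  refine ⟨c2.trans_ne AddSubgroup.index_ne_zero_of_finite, (Nat.pow_le_pow_iff_left two_ne_zero).1
    (Nat.le_of_mul_le_mul_left ?_ (pow_pos pp_pos 2))⟩
  rw [pow_two (R2 _).index, ← mul_assoc, ← kum hD, mul_right_comm]
  refine (Nat.mul_le_mul_right _ ((Nat.mul_le_mul_right _ c5).trans (c4.trans_le c1))).trans_eq ?_
  split_ifs <;> ring

/-- **the cup product of two classes of which the multiples are Kummer classes** -/
theorem spl (o : Ov l P) (I : Iv (dec P) ι) {x z : GQ → Pt A B} (p : Zn (dec P) (n + 2) x)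
    (q : Zn (dec P) (n + 2) z) (hx : pp • x ∈ Km A B (dec P)) (hz : pp • z ∈ Km A B (dec P))
    {y y' : Fx A B (dec P)} {Q Q' : Pt A B} (e : ∀ g ∈ dec P, pp ^ (n + 1) • x g = dd A B Q g)
    (e' : ∀ g ∈ dec P, pp ^ (n + 1) • z g = dd A B Q' g) (k : pp • Q = y) (k' : pp • Q' = y') :
    ι (cp (wp hD) (n + 2) x z) = pr (Ki.pr hD) I y ⟨z, q.mem⟩ + pr (Ki.pr hD) I y' ⟨x, p.mem⟩ := by
  have H := Ki.pr hD
  have st {x : GQ → Pt A B} (p : Zn (dec P) (n + 2) x) (hx : pp • x ∈ Km A B (dec P))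
      {y : Fx A B (dec P)} {Q : Pt A B} (e : ∀ g ∈ dec P, pp ^ (n + 1) • x g = dd A B Q g)
      (k : pp • Q = y) : ∃ u, Zn (dec P) (n + 2) (dd A B u) ∧ (∀ g ∈ dec P, pp • (x - dd A B u) g = 0) ∧
        ∀ z (q : Zn (dec P) (n + 2) z), pp • z ∈ Km A B (dec P) →
          ι (cp (wp hD) (n + 2) (dd A B u) z) = pr H I y ⟨z, q.mem⟩ := by
    obtain ⟨u, a⟩ := hx
    obtain ⟨u, rfl⟩ := H.dv u
    have a1 : ∀ g ∈ dec P, pp • x g = pp • dd A B u g := fun g m => by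
      rw [dd_apply, nsmul_sub, ← map_nsmul]; exact a g m
    have a2 : Q - pp ^ (n + 1) • u ∈ Fx A B (dec P) := fun g m => by
      have := e g m
      rw [pow_succ, mul_smul, a1 g m, ← mul_smul, ← pow_succ, dd_apply, dd_apply, nsmul_sub] at this
      rw [map_sub, map_nsmul, sub_eq_sub_iff_sub_eq_sub, this]
    have a3 : pp ^ (n + 2) • u = (y - pp • (⟨_, a2⟩ : Fx A B (dec P)) :) := by
      show _ = y.1 - pp • (Q - pp ^ (n + 1) • u)
      rw [← k, nsmul_sub, sub_sub_cancel, ← mul_smul, ← pow_succ']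
    refine ⟨u, zn_dd (a3 ▸ (y - pp • (⟨_, a2⟩ : Fx A B (dec P))).2), fun g m => by
      rw [Pi.sub_apply, nsmul_sub, a1 g m, sub_self], fun z q hz => ?_⟩
    rw [← pr_eq H I _ ⟨z, q.mem⟩ a3 q, map_sub, AddMonoidHom.sub_apply, Ba.pr_swap,
      pr_km hD o I _ (pp • ⟨z, q.mem⟩) hz, sub_zero]
  obtain ⟨u, u1, u2, u3⟩ := st p hx e k
  obtain ⟨v, v1, v2, v3⟩ := st q hz e' k'
  have s1 := p.sub u1
  have t1 := q.sub v1
  have c0 : ι (cp (wp hD) (n + 2) (x - dd A B u) (z - dd A B v)) = 0 :=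
    I.b2 _ (b2_zero fun g a j b => mq_zero.1 (by
      have t : pp ^ (n + 1) • (x - dd A B u) g = 0 := by rw [pow_succ, mul_smul, u2 g a, nsmul_zero]
      rw [cp, ← H.lev t (tor_map (t1.tr j b) g), ← map_nsmul, v2 j b, map_zero, H.zr t]))
  have c1 := iv_addl H I u1 s1 q
  have c2 := iv_addr H I s1 v1 t1
  rw [add_sub_cancel] at c1 c2
  rw [c1, c2, c0, add_zero, I.eq (cp_sym H s1 v1), u3 z q hz, v3 _ s1 ⟨0, fun g m => by
    simpa using u2 g m⟩, show (⟨x - dd A B u, s1.mem⟩ : Zl A B (dec P)) = ⟨x, p.mem⟩ - ⟨_, u1.mem⟩ from rfl,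
    map_sub, pr_km hD o I y' ⟨_, u1.mem⟩ ⟨u, fun _ _ => rfl⟩, sub_zero]

omit hD

variable {a b : GQ → Pt A B} {c : GQ}

theorem conj_sq (hc : IsConj c) : c * c = 1 :=
  hc.elim fun φ e => AlgEquiv.ext fun y => φ.injective (by simp [e])

/-- every cocycle can be framed -/
theorem frm (hc : IsConj c) (p : Zn ⊤ n a) : ∃ t, pp ^ n • t = 0 ∧ a c = dd A B t c := by
  obtain ⟨u, v, e⟩ := Nat.isCoprime_iff_coprime.2 (cop_two_pow n)
  have h2 := p.tr c trivial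
  have h3 := p.co c trivial c trivial
  rw [conj_sq hc, p.one, eq_comm, add_eq_zero_iff_neg_eq] at h3
  refine ⟨-(u • a c), by rw [neg_nsmul, smul_comm, h2, zsmul_zero, neg_zero], ?_⟩
  rw [dd_apply, map_neg, map_zsmul, ← h3]
  rw [← natCast_zsmul] at h2
  linear_combination (norm := module) v • h2 - e • a c

/-- reciprocity without a frame -/
theorem rec1 (hD : 4 * (A : ℚ) ^ 3 + 27 * (B : ℚ) ^ 2 ≠ 0) {S : Finset ℕ} (hS : Sb A B ⊆ S)
    (P : ℕ → Ideal (𝓞 Qb)) (o : ∀ p ∈ S, Ov p (P p)) (hc : IsConj c) (p : Zn ⊤ n a) (q : Zn ⊤ n b)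
    (ua : ∀ i ∈ In S, a i = 0) (ub : ∀ i ∈ In S, b i = 0) :
    ∑ p ∈ S, iv (P p) (cp (wp hD) n a b) = 0 := by
  have H := Ki.pr hD
  obtain ⟨t, t1, t2⟩ := frm hc p
  have d : Zn ⊤ n (dd A B t) := zn_dd (t1 ▸ zero_mem _)
  rw [← rec_cp hD H hS P o hc (p.sub d) q (fun i m => ?_) ub (.inl (sub_eq_zero.2 t2))]
  · refine Finset.sum_congr rfl fun l m => ?_
    have := iv_addl H (ivP (o l m)) ((p.sub d).mono le_top) (d.mono le_top) (q.mono le_top)
    rwa [sub_add_cancel, (ivP (o l m)).b2 _ (cp_cobl H t1 (q.mono le_top)), add_zero] at this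
  · obtain ⟨l, m', Q, k, r⟩ := id m
    rw [Pi.sub_apply, ua i m, dd_apply, ur_pt k (nd_of hD k.1 fun x => m' (hS x)) r (d.tr i trivial),
      sub_self, sub_self]

/-- conjugate places -/
theorem cj (co : ∀ g j, a (g * j) = a g + ga g (a j)) {R : Pt A B}
    (h : ∀ g ∈ dec P, a g = ga g R - R) (s : GQ) :
    ∀ g ∈ dec (s • P), a g = ga g (ga s R - a s) - (ga s R - a s) := fun g m => by
  have m' : s⁻¹ * g * s ∈ dec P := (GW.Pl.dec_iff _ _).2 (by
    rw [mul_smul, mul_smul, (GW.Pl.dec_iff _ _).1 m, inv_smul_smul])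
  have e := co s (s⁻¹ * g * s)
  rw [h _ m', show s * (s⁻¹ * g * s) = g * s by group, co, map_sub, ← ga_mul,
    show s * (s⁻¹ * g * s) = g * s by group, ga_mul] at e
  rw [map_sub, ← sub_eq_zero, ← sub_eq_zero.2 e]
  abel

end Vale.Agent.P014Y.Pk
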