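import Vale.Agent.P014Y.Pk.Ct
import Vale.Agent.P014Y.Pk.Loc
import Vale.Agent.P014Y.Kx.Wd
import Vale.Agent.P014U.Sh.Ur
import Vale.Agent.P014U.Bt.Kum

/-! # P014Y, block PARK: the global pairing (helper82) -/

set_option autoImplicit false
set_option linter.all false

open scoped Classical Pointwise

noncomputable section

namespace Vale.Agent.P014Y.Pk

open Vale.Agent.P014U Cp
open NumberField Matrix
open Vale.Agent.P022 (Qb GQ IsConj)
open Vale.Agent.P022K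
open Vale.Agent.P022K.G2 (In)
open Vale.Agent.P022D.W (dec inP_le_dec)
open Vale.Agent.P022E.GW (Ov)
open L2 (W)
open Vale.Agent.P004M.TE (Pt ga ga_mul ga_one ev_ga)
open Ki (wp tor_map)
open Bt (dd Zl Km Z0 Zs Zk Z0_le dd_apply mem_Zs)
open P014T.Wm (Fx)
open Ba (Tk Tp Dv Zf mem_Zf mem_Tk)
open Cp.Bb (Lr Yl h0 Cm SQ)
open Kx (Pl)

variable [Pp] {A B : ℤ} {S : Finset ℕ} {P : ℕ → Ideal (𝓞 Qb)} {c : GQ} {a b x : GQ → Pt A B} {n : ℕ}

variable (A B) in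
/-- **the Selmer cocycles** -/
def Sl : AddSubgroup (GQ → Pt A B) := Zl A B ⊤ ⊓ ⨅ (l) (Q) (_ : Ov l Q), Km A B (dec Q)

theorem mem_Sl : x ∈ Sl A B ↔ x ∈ Zl A B ⊤ ∧ ∀ l Q, Ov l Q → x ∈ Km A B (dec Q) := by
  simp [Sl, AddSubgroup.mem_iInf]

theorem lc_top (p : Zn ⊤ n a) : IsLocallyConstant a :=
  (p.lc.comp_continuous (f := fun g : GQ => (⟨g, trivial⟩ : (⊤ : Subgroup GQ))) (by fun_prop) :)

/-- the framed Selmer group does not depend on the places -/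
theorem zs_all (h : Pl A B S P) : x ∈ Zs A B S c P ↔ x ∈ Sl A B ∧ x c = 0 := by
  rw [mem_Zs, mem_Sl]
  refine ⟨fun ⟨m, k⟩ => ⟨⟨Z0_le S c ⊤ m, fun l Q o => ?_⟩, m.2.2.2.2⟩, fun ⟨⟨m, k⟩, e⟩ => ?_⟩
  · by_cases i : l ∈ S
    · obtain ⟨s, rfl⟩ := GW.Pl.ov_trans (h.ov l i) o
      exact (k l i).elim fun R r => ⟨_, cj m.2.1 r s⟩
    · obtain ⟨_, t⟩ := m.2.2.1
      obtain ⟨_, R, -, r⟩ := Sh.ur0 (h.bad l o.1 i) o m.2.1 m.1 t fun g j => m.2.2.2.1 g ⟨l, i, Q, o, j⟩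
      exact ⟨R, r⟩
  · obtain ⟨n, p⟩ := mem_Zl.1 m
    refine ⟨⟨lc_top p, fun g j => p.co g trivial j trivial, ⟨n, fun g => p.tr g trivial⟩, ?_, e⟩,
      fun l i => k l _ (h.ov l i)⟩
    rintro g ⟨l, i, Q, o, j⟩
    obtain ⟨R, r⟩ := k l Q o
    have r := r g (inP_le_dec j)
    exact r.trans (sub_eq_zero.2 (Sh.ur1 (h.bad l o.1 i) o j (r ▸ p.tr g trivial)))

theorem zs_one (h : Pl A B S P) : x ∈ Zs A B S 1 P ↔ x ∈ Sl A B := (zs_all h).trans
  (and_iff_left_of_imp fun m => (mem_Zl.1 (mem_Sl.1 m).1).elim fun _ p => p.one)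

theorem dd_sl {Q : Pt A B} (h : pp ^ n • Q ∈ Fx A B ⊤) : dd A B Q ∈ Sl A B :=
  mem_Sl.2 ⟨(zn_dd h).mem, fun _ _ _ => ⟨Q, fun _ _ => rfl⟩⟩

theorem pl_of (hD : 4 * A ^ 3 + 27 * B ^ 2 ≠ 0) (L : Lr A B S) (o : ∀ l ∈ S, Ov l (P l)) :
    Pl A B S P := ⟨hD, o, fun l p n d => n (L.bad l p d)⟩

variable (A B) in
/-- the coboundaries of the points of order `pp` -/
def Bo : AddSubgroup (GQ → Pt A B) := (Tk (Pt A B) 1).map (dd A B)

variable (S P) in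
/-- `y` is the family of local points given by the class `a` -/
def Kp (a : GQ → Pt A B) (y : Yl A B S P) : Prop :=
  ∀ l : S, ∃ Q, (∀ g ∈ dec (P l), a g = dd A B Q g) ∧ pp • Q = y l

variable (A B S P) in
/-- the multiples of `pp` -/
def RY : AddSubgroup (Yl A B S P) := (Pi.addMonoidHom fun l : S => (QuotientAddGroup.mk'
  (R2 (Fx A B (dec (P l))))).comp (Pi.evalAddMonoidHom _ l)).ker

variable {y y' : Yl A B S P}

theorem mem_RY : y ∈ RY A B S P ↔ ∀ l, ∃ u, pp • u = y l :=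
  funext_iff.trans (forall_congr' fun _ => QuotientAddGroup.eq_zero_iff _)

theorem Kp.add (h : Kp S P a y) (h' : Kp S P b y') : Kp S P (a + b) (y + y') := fun l =>
  (h l).elim fun Q e => (h' l).elim fun Q' e' => ⟨Q + Q', fun g m => by
    rw [map_add, Pi.add_apply, Pi.add_apply, e.1 g m, e'.1 g m], by rw [nsmul_add, e.2, e'.2]; rfl⟩

theorem Kp.iff (h : Kp S P a y) : (y : _ ⧸ RY A B S P) = y' ↔ Kp S P a y' := by
  rw [QuotientAddGroup.eq, mem_RY]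
  refine forall_congr' fun l => (h l).elim fun Q e => ⟨fun ⟨u, k⟩ => ⟨Q + u, fun g m => ?_, ?_⟩,
    fun ⟨Q', e'⟩ => ⟨⟨-Q + Q', fun g m => ?_⟩, Subtype.ext ?_⟩⟩
  · rw [map_add, Pi.add_apply, e.1 g m, dd_apply u.1, u.2 g m, sub_self, add_zero]
  · rw [nsmul_add, e.2, show pp • u.1 = -y l + y' l from congrArg Subtype.val k, add_neg_cancel_left]
  · have := (e.1 g m).symm.trans (e'.1 g m)
    rw [dd_apply, dd_apply] at this
    rw [map_add, map_neg, ← sub_eq_zero, ← sub_eq_zero.2 this.symm]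
    abel
  · show pp • (-Q + Q') = -y l + y' l
    rw [nsmul_add, neg_nsmul, e.2, e'.2]

theorem ex_kp (o : ∀ l ∈ S, Ov l (P l)) (m : a ∈ Sl A B) (t : pp • a = 0) : ∃ y, Kp S P a y := by
  choose Q e using fun l : S => (mem_Sl.1 m).2 l _ (o l l.2)
  exact ⟨fun l => ⟨pp • Q l, fun g j => by
    rw [map_nsmul, ← sub_eq_zero, ← nsmul_sub, ← e l g j]; exact congrFun t g⟩,
    fun l => ⟨Q l, e l, rfl⟩⟩

variable (hD : 4 * (A : ℚ) ^ 3 + 27 * (B : ℚ) ^ 2 ≠ 0)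
include hD

theorem card_bo : Nat.card (Bo A B) * h0 A B ⊤ = pp ^ 2 := by
  rw [← card_e hD, ← Ba.card_map (dd A B), mul_comm]
  exact congrArg (· * _) (Nat.card_congr ⟨fun x => ⟨x.1.1, Bt.ker_dd.2 fun g => x.1.2 g trivial,
    congrArg Subtype.val x.2⟩, fun x => ⟨⟨x.1, fun g _ => Bt.ker_dd.1 x.2.1 g⟩, Subtype.ext x.2.2⟩,
    fun _ => rfl, fun _ => rfl⟩)

theorem ry_le (o : ∀ l ∈ S, Ov l (P l)) (h : pp ∈ S) : (RY A B S P).index ≠ 0 ∧
    (RY A B S P).index ≤ pp * ∏ l : S, h0 A B (dec (P l)) := by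
  have f (l : S) : Finite (_ ⧸ R2 (Fx A B (dec (P l)))) :=
    Nat.finite_of_card_ne_zero (idx_le hD (o l l.2)).1
  rw [RY, AddSubgroup.index_ker]
  refine ⟨Nat.card_pos.ne', (AddSubgroup.card_le_card_addGroup _).trans (Nat.card_pi.trans_le
    ((Finset.prod_le_prod' fun (l : S) _ => (idx_le hD (o l l.2)).2).trans_eq ?_))⟩
  rw [Finset.prod_mul_distrib, Finset.prod_coe_sort S fun l => if l = pp then pp else 1,
    Finset.prod_ite_eq', if_pos h]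
  rfl

/-- a class which is not trivial is not trivial at some prime -/
theorem one (p : Zn ⊤ 1 a) (k : a ∉ Bo A B) : ∃ l : ℕ, l.Prime ∧ ∀ Q, Ov l Q →
    ¬ ∃ t, pp • t = 0 ∧ ∀ g ∈ dec Q, a g = dd A B t g := by
  obtain ⟨g, hg⟩ : ∃ g : GQ, ∀ v, a g ≠ ga g (vv hD v) - vv hD v := by
    by_contra! c
    obtain ⟨v, hv⟩ := L2.cyc1 (rp_ro hD ⊤) (to_z1 hD isClosed_univ p) fun g m =>
      (c g).imp fun v e => vv_inj hD (by rw [vv_ind hD p m, map_sub, ← ga_vv, e])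
    refine k ⟨vv hD v, vv_two hD v, funext fun g => ?_⟩
    have := vv_ind hD p (Subgroup.mem_top g)
    rwa [hv g trivial, G2.d0_apply, map_sub, mulVecLin_apply, ← ga_vv] at this
  obtain ⟨O, h1, h2, h3⟩ := mem_nhds_iff.1 (((lc_top p).eventually_eq g).and
    (Filter.eventually_all.2 fun v : W => ev_ga g (vv hD v)))
  obtain ⟨l, φ, u, -, ⟨P₀, c1, c2, c3⟩, d⟩ := Cheb.exists_fr h2 h3 ∅
  refine ⟨l, u, fun Q o ⟨t, t1, t2⟩ => ?_⟩
  obtain ⟨s, rfl⟩ := GW.Pl.ov_trans o ⟨u, c1, c2⟩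
  have e := cj (fun g j => p.co g trivial j trivial) t2 s φ (GW.Pl.fr_dec c1 u.ne_zero c3)
  obtain ⟨v, hv⟩ := ex_vv hD (t := ga s t - a s) (by
    rw [nsmul_sub, p.tr s trivial, tor_map ((w1 t).trans t1), sub_self])
  exact hg v (by rw [← (h1 d).1, ← (h1 d).2 v, hv, e])

/-- the part on which a complex conjugation is minus one -/
theorem card_cm (hc : IsConj c) : Nat.card (Cm A B c) = pp ∧ pp ≤ h0 A B (Subgroup.zpowers c) := by
  have hZ : 4 * A ^ 3 + 27 * B ^ 2 ≠ 0 := by exact_mod_cast hD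
  have cc := conj_sq hc
  obtain ⟨φ, hφ⟩ := hc
  obtain ⟨f, i⟩ := Bb.ex_cm hD cc (G2.oz_cc hφ)
  have := Nat.finite_of_card_ne_zero (Bb.h0_ne hZ (Subgroup.zpowers c))
  have c1 : Nat.card (Cm A B c) ≤ h0 A B (Subgroup.zpowers c) := Nat.card_le_card_of_injective f i
  let d := ga c - AddMonoidHom.id (Pt A B)
  have c2 := Ba.card_map d (Tk (Pt A B) 1)
  let q : ↥(d.ker ⊓ Tk (Pt A B) 1) ≃ Tk (Fx A B (Subgroup.zpowers c)) 1 := ⟨fun x => ⟨⟨x.1, fun g m =>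
    Subgroup.zpowers_le (H := Bb.fx {x.1}).2 (by rintro _ rfl; exact sub_eq_zero.1 x.2.1) m _ rfl⟩,
    Subtype.ext x.2.2⟩, fun x => ⟨x.1.1, AddSubgroup.mem_inf.2 ⟨AddMonoidHom.mem_ker.2 (sub_eq_zero.2
      (x.1.2 c (Subgroup.mem_zpowers c))), congrArg Subtype.val x.2⟩⟩, fun _ => rfl, fun _ => rfl⟩
  rw [card_e hD, show (Tk (Pt A B) 1).map d = Cm A B c from
    AddSubgroup.ext fun x => ⟨fun ⟨t, m, e⟩ => e ▸ ⟨(w1 _).symm.trans (Ki.tor (ρ := ga) (D := ⊤)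
      (mem_Tk.1 m ▸ zero_mem _) trivial), by
        show ga c (ga c t - t) = -(ga c t - t)
        rw [map_sub, ← ga_mul, cc, ga_one, neg_sub]⟩, fun m => by
      obtain ⟨k, e⟩ := pp_odd
      refine ⟨k • x, mem_Tk.2 (by rw [smul_comm, w1, m.1, nsmul_zero]), ?_⟩
      show ga c (k • x) - k • x = x
      have := m.1
      rw [e] at this
      rw [map_nsmul, m.2]
      linear_combination (norm := module) -this⟩,
    Nat.card_congr q, ← h0] at c2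
  obtain ⟨k, k2, e⟩ := (Nat.dvd_prime_pow pp_prime).1 (Dvd.intro_left _ c2)
  have k0 : k ≠ 0 := fun z => by
    rw [z, pow_zero, AddSubgroup.card_eq_one] at e
    have e1 : ab hD c = 1 := Matrix.ext_iff_mulVec.2 fun v => vv_inj hD (by
      rw [← ga_vv, one_mulVec, ← sub_eq_zero]
      exact AddSubgroup.mem_bot.1 (e ▸ ⟨by rw [nsmul_sub, ← map_nsmul, vv_pp, map_zero, sub_self], by
        rw [map_sub, ← ga_mul, cc, ga_one, neg_sub]⟩))
    have := congrFun (dt_ab hD) c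
    rw [L2.dt, e1, det_one, show X4S.Aq.ω c = -1 by simp [X4S.Aq.ω, G2.om, G2.oz_cc hφ]] at this
    exact two_ne (by linear_combination this)
  have k1 : k ≠ 2 := fun z => by
    have := one_lt
    rw [e, z] at c1 c2
    nlinarith [Nat.eq_of_mul_eq_mul_right (pow_pos pp_pos 2) (c2.trans (one_mul _).symm)]
  rw [show k = 1 by omega, pow_one] at e
  exact ⟨e, e ▸ c1⟩

end Vale.Agent.P014Y.Pk
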